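import Crest.Agent.X262.Fam6.Lf
import Crest.Agent.X262.KV.Qch
import Crest.Agent.X262.KV.Van
import Crest.Agent.X262.RR.All

/-!
# Row 262, G4 / FAM (helper6), part 4: the formal family of the embedded surface and of the lines

* `ext_of`     : the sections of `j M` extend (`M` free, `M² > 0`);
* `exists_all` : the output of FAM.
-/

set_option autoImplicit false

open PowerSeries

noncomputable section

namespace Crest.Agent.X262.Fam6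

open Crest.Agent.X277 Crest.Agent.X277.Lef Crest.Agent.X277.AN.G1 Crest.Agent.X277.BD
open Crest.Agent.X277.BD.Br
open Crest.Agent.X262.Mv99 Crest.Agent.X262.Alg44
open Crest.Agent.X262.Top (Hyp Lines)
open Crest.Agent.X262.Rig38 (T3 Sy ten plk pv qv OnL)
open Crest.Agent.X262.St91 (dgl)
open Crest.Agent.R274.Prod1_134 (IsPF)

variable {F L : Type} [Field F] [Algebra ℂ F] [Field L] [Algebra ℂ L]

theorem van_lin {P : PModel ℂ F} {ι : Type} {U : ι → Set (Pts P)} {a a' : BD ℂ F} (h : Lin a a')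
    (hv : Lift8.Van U (nS a)) : Lift8.Van U (nS a') := by
  obtain ⟨g, hg, rfl⟩ := h
  have h1 : ∀ (x : Pts P) z, z * g ∈ nS (a' + pr ℂ g) x ↔ z ∈ nS a' x := fun x z =>
    forall₂_congr fun V _ => by
      rw [map_mul, val_add, val_pr hg, mul_le_mul_iff_left₀ (RZ.pos hg)]
  intro r hr
  obtain ⟨s, hs⟩ := hv (fun c => r c * g) fun c c' x hx hx' =>
    sub_mul (r c) _ g ▸ (h1 x _).2 (hr c c' x hx hx')
  exact ⟨s / g, fun c x hx => (h1 x _).1 (by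
    rw [sub_mul, div_mul_cancel₀ _ hg]; exact hs c x hx)⟩

theorem zo_pat {P : PModel ℂ F} (i : Fin (P.N + 1)) : Lift8.ZO (pat P i) := by
  classical
  refine fun x hx => ⟨Finset.univ.image fun j => P.y j / P.y i, fun f hf => ?_, fun x' h =>
    mem_pat_of_mem fun j => h _ (Finset.mem_image_of_mem _ (Finset.mem_univ j))⟩
  obtain ⟨j, -, rfl⟩ := Finset.mem_image.1 hf
  exact A_le hx (div_mem_chart P.y _ j)

variable [Algebra.EssFiniteType ℂ F] {Γ : MvPolynomial (Fin 4) ℂ} {S : Hyp 3 Γ F} {M : BD ℂ F}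
  {D : Dfm S M} {m : ℕ} {G : MvPolynomial (Fin 6) ℂ}

/-- sections extend -/
theorem ext_of (hΓ : Qt Γ) (b : Surf.B2 F) (hM : M ∈ On S.P) (hf : Free M) (hp : 0 < bnum [M, M])
    {j : ℕ} (hj : 0 < j) : Ext D j := fun s hs => by
  have h1 : Big M := hf.nef.big_iff.2 (by rwa [Hor83.dim_two b])
  have h2 := van_lin (a' := j • M) (by simpa using (KV.lin_kP_quartic hΓ b).add Lin.rfl)
    (KV.vanPStmt F 2 S.P b _ (nsmul_mem hM j) (hf.nsmul j) (h1.nsmul hj) _ (U S)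
      (fun _ => zo_pat _) (exists_U hΓ))
  obtain ⟨f, h3, h4⟩ := Lift8.lift_abs (fun a => Lift8.uni_act ((D.Φ a).pow j))
    (fun a c x ha hc => (same_nsmul hM (D.same ha hc) j).2) h2 (a := s) fun _ _ _ V _ => hs V
  exact ⟨f, fun a x hx => (h4 a x hx).imp fun c h => ⟨h.1, h.2.symm⟩, h3⟩

/-- **FAM** -/
theorem exists_all (hN : Lift8.NuStmt) (hΓ : Qt Γ) (b : Surf.B2 F) (Λ : Lines G F L)
    (pf : IsPF Λ.ι (Λ.τ.comp Λ.ι)) (hM : M ∈ On S.P) (pos : 0 < bnum [M, M]) (hf : Free M)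
    (amp : ∃ q : ℕ, 0 < q ∧ Free (q • M - oP S.P)) {u : L} (hu : u ≠ 0)
    (par : Λ.τ u = (-1) ^ m * u)
    (hp : mxf ℂ Λ.plk = pb Λ.ι M + pb (Λ.τ.comp Λ.ι) M - m • dgl Λ.ι (Λ.τ.comp Λ.ι) S.y + pr ℂ u)
    {c : T3 ℂ⟦X⟧} (sy : Sy c) (c0 : ∀ i j k, constantCoeff (c i j k) = ten G i j k)
    {a : Fin 8 → L⟦X⟧} (a0 : ∀ i, constantCoeff (a i) = Λ.a i) (on : OnL c (pv a) (qv a))
    {w : L⟦X⟧} (w0 : constantCoeff w = 1)
    (sym : ∀ i j, map (Λ.τ : L →+* L) (w * plk (pv a) (qv a) i j) = w * plk (pv a) (qv a) i j)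
    (kn : ∀ i j, C u⁻¹ * (w * plk (pv a) (qv a) i j) ∈ Submodule.span ℂ⟦X⟧
      {z | ∃ s ∈ (GS D 1 : Set F⟦X⟧), ∃ s' ∈ (GS D 1 : Set F⟦X⟧),
        z = map (Λ.ι : F →+* L) s * map (Λ.τ.comp Λ.ι : F →+* L) s'})
    (dg : ∀ i j n (V : RZ ℂ L), (∀ f, Λ.ι f ∈ V.1) → (∀ f, (Λ.τ.comp Λ.ι) f ∈ V.1) →
      V.v (u⁻¹ * coeff n (w * plk (pv a) (qv a) i j)) ≤
        (-(m • dgl Λ.ι (Λ.τ.comp Λ.ι) S.y)).val V)
    (hk : ∀ N ∈ On S.P, Lifts S D.η N → ∀ N' ∈ On S.P,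
      bnum [M, M] * bnum [N, N'] = bnum [N, M] * bnum [M, N']) {n : ℕ}
    (hl : ∀ A ∈ On S.P, (∀ N ∈ On S.P, bnum [M, M] * bnum [A, N] = bnum [A, M] * bnum [M, N]) →
      bnum [A, M] ≠ 0 → (n : ℤ) ≤ bnum [A, A]) :
    ∃ (P : PModel ℂ F) (T : Fam P), Surf.Chi P b 2 ∧ Lin (kP P b) 0 ∧ Same S.P P ∧ T.Rigid ∧
      (∀ A ∈ On P, ∀ k : ℤ, (∀ a ∈ On P, bnum [oP P - k • A, a] = 0) → (n : ℤ) ≤ bnum [A, A]) ∧
      Nonempty (LFam T Λ) := by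
  obtain ⟨q, hq, h1⟩ := amp
  obtain ⟨Q, g, hg, h0, hQ, hS⟩ := exists_rem (sub_mem (nsmul_mem hM q) oP_mem) h1
  rw [sub_add_cancel] at hQ
  obtain ⟨T, x₀, h2, h3, h4⟩ := exists_fam hΓ hg h0 hQ hS (ext_of (D := D) hΓ b hM hf pos hq)
  exact ⟨Q, T, RR.chiBirStmt F _ _ _ _ _ (KV.chi_quartic (S := S) hΓ b),
    hS.kP_eq b ▸ KV.lin_kP_quartic hΓ b, hS, rigid hΓ (lin_of hg hQ) hS h4 hk,
    big (lin_of hg hQ) hq (hS.on_le hM) pos (hS.on_eq ▸ hl),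
    exists_lfam hN hΓ b Λ pf hM hf (ext_of hΓ b hM hf pos one_pos) hq hg hQ h2 h3 hu par hp sy c0 a0
      on w0 sym kn dg⟩

end Crest.Agent.X262.Fam6
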