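import Crest.Agent.X262.Fam6.Main
import Crest.Agent.X262.G4.Defs
import Crest.Agent.X262.Bl41.Diag

/-!
# Row 262, G4 / FAM (helper6), part 5: `fam`, on the interface of `G4/Defs`
-/

set_option autoImplicit false

noncomputable section

namespace Crest.Agent.X262.Fam6

open Crest.Agent.X277 Crest.Agent.X277.Lef Crest.Agent.X277.BD
open Crest.Agent.X277.BD.Br
open Crest.Agent.X262.Mv99 Crest.Agent.X262.Alg44

/-- **FAM** -/
theorem fam {F L : Type} [Field F] [Algebra ℂ F] [Algebra.EssFiniteType ℂ F] [Field L] [Algebra ℂ L]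
    (B : G4.Base F L) (D : Dfm B.S B.LL) (n : ℕ) (hA : B.Amp) (N : G4.Ln B D) (hK : G4.Kap B D)
    (hL : B.Large n) : ∃ (P : PModel ℂ F) (T : Fam P), Surf.Chi P B.b 2 ∧ Lin (kP P B.b) 0 ∧
      Same B.S.P P ∧ T.Rigid ∧
      (∀ A ∈ On P, ∀ k : ℤ, (∀ a ∈ On P, bnum [oP P - k • A, a] = 0) → (n : ℤ) ≤ bnum [A, A]) ∧
      Nonempty (LFam T B.Λ) :=
  exists_all (D := D) Bl41.nuStmt B.qt B.b B.Λ B.pf B.LL_on B.pos hA.1 hA.2 B.u_ne B.par B.plk N.sy
    N.c0 N.a0 N.on N.w0 (fun i j => (N.sc i j).sym) (fun i j => (N.sc i j).kn)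
    (fun i j => (N.sc i j).dg) hK hL

end Crest.Agent.X262.Fam6
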