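import Crest.Agent.X262.Fam6.Rem
import Crest.Agent.X262.Mv99.Mon
import Crest.Agent.X262.Lift8.Defs
import Crest.Agent.X262.Fam99.Rgd

/-!
# Row 262, G4 / FAM (helper6), part 2: sections of the deformed polarisation, the formal family

* `GS D j`     : global sections of the `j`-th power; `GS.mul`, `GS.sat`, `GS.const`, `GS.div`;
* `exists_fam` : the formal family of an embedding by `q M`;
* `rigid`, `big`.
-/

set_option autoImplicit false

open PowerSeries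

noncomputable section

namespace Crest.Agent.X262.Fam6

open Crest.Agent.X277 Crest.Agent.X277.Lef Crest.Agent.X277.AN.G1 Crest.Agent.X277.BD
open Crest.Agent.X277.BD.Br
open Crest.Agent.X262.Mv99 Crest.Agent.X262.Alg44
open Crest.Agent.X262.Top (Hyp)

variable {F : Type} [Field F] [Algebra ℂ F] {Γ : MvPolynomial (Fin 4) ℂ} {S : Hyp 3 Γ F}
  {M : BD ℂ F} {D : Dfm S M} {i j : ℕ} {s s' : F⟦X⟧}

theorem mul_nS {P : PModel ℂ F} {x : Pts P} {a a' : BD ℂ F} {c c' : F⟦X⟧} (h : c ∈ ser (nS a x))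
    (h' : c' ∈ ser (nS a' x)) : c * c' ∈ ser (nS (a + a') x) :=
  mul_mem_ser (fun _ h _ h' V hV => by
    rw [map_mul, val_add]; exact mul_le_mul' (h V hV) (h' V hV)) h h'

variable (D) in
/-- global sections of the `j`-th power of the deformed polarisation -/
def GS (j : ℕ) : Submodule ℂ⟦X⟧ F⟦X⟧ where
  carrier := {s | ∀ a, ∀ x ∈ U S a, ∃ c ∈ ser (nS (j • M) x), s = (D.Φ a).u ^ j * (D.Φ a).ψ c}
  add_mem' h h' a x hx := by
    obtain ⟨c, hc, rfl⟩ := h a x hx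
    obtain ⟨c', hc', rfl⟩ := h' a x hx
    exact ⟨c + c', add_mem hc hc', by rw [map_add, mul_add]⟩
  zero_mem' a x _ := ⟨0, zero_mem _, by simp⟩
  smul_mem' g s h a x hx := by
    obtain ⟨c, hc, rfl⟩ := h a x hx
    refine ⟨map (algebraMap ℂ F) g * c, zero_add (j • M) ▸ mul_nS (fun n V _ => ?_) hc, ?_⟩
    · rw [coeff_map]
      exact V.v_alg_le _
    · rw [smul_eq, map_mul, Mv.ψ_map, mul_left_comm]

theorem GS.mul (h : s ∈ GS D i) (h' : s' ∈ GS D j) : s * s' ∈ GS D (i + j) := fun a x hx => by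
  obtain ⟨c, hc, rfl⟩ := h a x hx
  obtain ⟨c', hc', rfl⟩ := h' a x hx
  exact ⟨c * c', add_nsmul M i j ▸ mul_nS hc hc', by rw [map_mul, pow_add]; ring⟩

theorem GS.pow (h : s ∈ GS D 1) (j : ℕ) : s ^ j ∈ GS D j := by
  induction j with
  | zero => exact fun a x _ => ⟨C 1, C_mem_ser fun V _ => by simp, by simp⟩
  | succ j ih => exact pow_succ s j ▸ GS.mul ih h

theorem GS.sat (h : X * s ∈ GS D j) : s ∈ GS D j := fun a x hx => by
  obtain ⟨c, hc, h1⟩ := h a x hx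
  obtain ⟨c', hc', h2⟩ := (Lift8.uni_act ((D.Φ a).pow j)).sat (n := 1) (f := s)
    ⟨c, hc, by rw [pow_one, h1]; rfl⟩
  exact ⟨c', hc', h2.symm⟩

theorem const_act (m : Mv ℂ F) (c : F⟦X⟧) : constantCoeff (m.u ^ j * m.ψ c) = constantCoeff c := by
  rw [map_mul, map_pow, m.u0, m.const, one_pow, one_mul]

theorem GS.const (hΓ : Qt Γ) (h : s ∈ GS D j) : constantCoeff s ∈ (j • M).Sec := fun V => by
  obtain ⟨x, hx⟩ := exists_ov' (P := S.P) V
  obtain ⟨a, ha⟩ := exists_U hΓ x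
  obtain ⟨c, hc, rfl⟩ := h a x ha
  exact const_act _ c ▸ const_mem hc V hx

theorem GS.div (h : s ∈ GS D j) (h' : s' ∈ GS D j) {a : Fin 3} {x : Pts S.P} (hx : x ∈ U S a)
    (hg : At (j • M) x (constantCoeff s')) : ∃ g ∈ serR (oR x), s = s' * (D.Φ a).ψ g := by
  obtain ⟨c, hc, rfl⟩ := h a x hx
  obtain ⟨c', hc', rfl⟩ := h' a x hx
  rw [const_act] at hg
  obtain ⟨v, hv, rfl⟩ := (mem_ser_prin hg.ne fun _ => mem_nS_iff hg).1 hc
  obtain ⟨v', hv', h1⟩ := (mem_ser_prin hg.ne fun _ => mem_nS_iff hg).1 hc'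
  have h2 := congrArg constantCoeff h1
  rw [map_mul, constantCoeff_C, left_eq_mul₀ hg.ne] at h2
  obtain ⟨g, h3, h4⟩ := exists_inv_serR hv' (one_mem _) (by rw [h2, one_mul])
  refine ⟨g * v, mul_mem h3 hv, ?_⟩
  rw [mul_assoc, ← map_mul]
  congr 2
  conv_rhs => rw [h1, mul_assoc, ← mul_assoc v', h4, one_mul]

variable (D) in
/-- the sections of `j M` extend -/
def Ext (j : ℕ) : Prop := ∀ s ∈ (j • M).Sec, ∃ r ∈ GS D j, constantCoeff r = s

/-- the module of sections is finitely generated -/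
theorem Ext.exists_gen [Algebra.EssFiniteType ℂ F] (hΓ : Qt Γ) (h : Ext D j) :
    ∃ (n : ℕ) (r : Fin n → F⟦X⟧), (∀ k, r k ∈ GS D j) ∧
      ∀ s ∈ GS D j, ∃ c : Fin n → ℂ⟦X⟧, s = ∑ k, c k • r k := by
  let b := Module.finBasis ℂ (j • M).Sec
  choose r h1 h2 using fun k => h _ (b k).2
  refine ⟨_, r, h1, fun s => mem_span_adic (fun _ => GS.sat) h1 fun f hf => ?_⟩
  have h3 := congrArg Subtype.val (b.sum_repr ⟨_, GS.const hΓ hf⟩)
  rw [AddSubmonoidClass.coe_finsetSum] at h3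
  rw [← show _ = constantCoeff f from h3]
  exact sum_mem fun k _ => Submodule.smul_mem _ _ (Submodule.subset_span ⟨k, h2 k⟩)

variable {Q : PModel ℂ F} {q : ℕ} {g : F}

variable (D) in
/-- the moves of the family are the moves of the deformation -/
def Of (T : Fam Q) : Prop := ∀ z, ∃ (x : Pts S.P) (a : Fin 3), lp x = lp z ∧ x ∈ U S a ∧ T.m z = D.Φ a

/-- **the formal family** -/
theorem exists_fam (hΓ : Qt Γ) (hg : g ≠ 0) (h0 : Q.y 0 = 1) (hQ : oP Q + pr ℂ g = q • M)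
    (hS : Same S.P Q) (hL : Ext D q) : ∃ (T : Fam Q) (x₀ : F⟦X⟧), constantCoeff x₀ = g ∧
      (∀ f ∈ GS D q, f * x₀⁻¹ ∈ T.FS 1) ∧ Of D T := by
  choose x h1 h2 using fun k => hL _ (hQ ▸ mul_mem_Sec (y_mem_Sec (P := Q) k) (mem_Sec_pr g))
  choose p hp using hS.dn
  choose a ha using fun z => exists_U hΓ (p z)
  have h3 : constantCoeff (x 0) = g := by rw [h2, h0, one_mul]
  have h4 : ∀ f ∈ GS D q, ∀ (z : Pts Q) i, z ∈ pat Q i → ∃ v ∈ serR (oR z),
      f * (x 0)⁻¹ = x i * (x 0)⁻¹ * (D.Φ (a z)).ψ v := fun f hf z i hi => by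
    obtain ⟨v, hv, rfl⟩ := GS.div hf (h1 i) (ha z) (by
      rw [h2, ← hQ]; exact (at_congr (hp z)).2 ((at_y hi).add (at_pr z hg)))
    exact ⟨v, by simpa only [oR, hp z] using hv, mul_right_comm _ _ _⟩
  refine ⟨⟨fun k => x k * (x 0)⁻¹, fun k => ?_, PowerSeries.mul_inv_cancel _ (h3 ▸ hg),
    fun z => D.Φ (a z), fun z i hi k => h4 _ (h1 k) z i hi⟩, x 0, h3, fun f hf z i hi => ?_,
    fun z => ⟨p z, a z, hp z, ha z, rfl⟩⟩
  · rw [map_mul, constantCoeff_inv, h3, h2, mul_inv_cancel_right₀ hg]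
  · simpa only [pow_one] using h4 f hf z i hi

theorem lin_of (hg : g ≠ 0) (hQ : oP Q + pr ℂ g = q • M) : Lin (oP Q) (q • M) :=
  Lin.symm ⟨g, hg, hQ.symm⟩

variable [Algebra.EssFiniteType ℂ F]

/-- rigidity -/
theorem rigid (hΓ : Qt Γ) (hQ : Lin (oP Q) (q • M)) (hS : Same S.P Q) {T : Fam Q} (hT : Of D T)
    (hk : ∀ N ∈ On S.P, Lifts S D.η N → ∀ N' ∈ On S.P,
      bnum [M, M] * bnum [N, N'] = bnum [N, M] * bnum [M, N']) : T.Rigid := by
  intro e he m' hm n σ h0 hσ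
  have h1 : ∀ x : Pts S.P, ∃ a, x ∈ U S a ∧ ∃ j, ∀ l, ∃ w ∈ serR (oR x),
      σ l = σ j * (Fam99.lev e he (D.Φ a)).ψ w := fun x => by
    obtain ⟨z, hz⟩ := hS.up x
    obtain ⟨x', a, h1, h2, h3⟩ := hT z
    obtain rfl := lp_injective (h1.trans hz)
    refine ⟨a, h2, (hσ z).imp fun j h l => (h l).imp fun w hw =>
      ⟨by simpa only [oR, h1] using hw.1, hw.2.trans (congrArg _ ?_)⟩⟩
    refine hom_ext (m' z).ψX (Mv.ψX _) (fun c => ?_) w
    have h4 := (hm z (C c)).trans (Fam99.isLev_lev e he (T.m z) (C c)).symm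
    rwa [expand_C, h3] at h4
  have h2 := Fam99.rigidStmt F Γ S hΓ M D e he _ (fun a => Fam99.isLev_lev e he _) n σ h0 h1
  have h3 : (mxf ℂ fun j => constantCoeff (σ j)) ∈ On S.P := mxf_mem fun x => by
    obtain ⟨a, -, j, h⟩ := h1 x
    refine ⟨j, h0 j, fun l => ?_⟩
    obtain ⟨w, hw, h⟩ := h l
    rw [h, map_mul, mul_div_cancel_left₀ _ (h0 j), Mv.const]
    exact const_mem hw
  have h4 := hk _ h3 h2 _ h3
  generalize (mxf ℂ fun j => constantCoeff (σ j)) = N at *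
  rw [hQ.bnum_eq, bnum_swap _ (oP Q), bnum_swap _ (oP Q), hQ.bnum_eq, hQ.bnum_eq, bnum_nsmul,
    bnum_nsmul, bnum_nsmul2]
  rw [bnum_swap N M] at h4
  linear_combination (q : ℤ) ^ 2 * h4

/-- the polarisation has no small numerical divisor -/
theorem big (hQ : Lin (oP Q) (q • M)) (hq : 0 < q) (hM : M ∈ On Q) (hp : 0 < bnum [M, M]) {n : ℕ}
    (hl : ∀ A ∈ On Q, (∀ N ∈ On Q, bnum [M, M] * bnum [A, N] = bnum [A, M] * bnum [M, N]) →
      bnum [A, M] ≠ 0 → (n : ℤ) ≤ bnum [A, A]) :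
    ∀ A ∈ On Q, ∀ k : ℤ, (∀ a ∈ On Q, bnum [oP Q - k • A, a] = 0) → (n : ℤ) ≤ bnum [A, A] := by
  intro A hA k h
  have h1 : ∀ a ∈ On Q, q * bnum [M, a] = k * bnum [A, a] := fun a ha => by
    have := h a ha
    rwa [bnum_sub, hQ.bnum_eq, bnum_nsmul, bnum_zsmul, sub_eq_zero] at this
  have h2 : k * bnum [A, M] ≠ 0 := h1 M hM ▸ (mul_pos (Int.natCast_pos.2 hq) hp).ne'
  refine hl A hA (fun N hN => mul_left_cancel₀ (left_ne_zero_of_mul h2) ?_)
    (right_ne_zero_of_mul h2)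
  linear_combination bnum [M, N] * h1 M hM - bnum [M, M] * h1 N hN

end Crest.Agent.X262.Fam6
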