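import Crest.Agent.X262.Fam6.Gam

/-!
# Row 262, G4 / FAM (helper6), part 3: the formal family of lines

* `exists_lfam`.
-/

set_option autoImplicit false

open PowerSeries

noncomputable section

namespace Crest.Agent.X262.Fam6

open Crest.Agent.X277 Crest.Agent.X277.Lef Crest.Agent.X277.AN.G1 Crest.Agent.X277.BD
open Crest.Agent.X277.BD.Br
open Crest.Agent.X262.Mv99 Crest.Agent.X262.Alg44
open Crest.Agent.X262.Top (Hyp Lines)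
open Crest.Agent.X262.Rig38 (T3 Sy ten plk pv qv OnL)
open Crest.Agent.X262.St91 (dgl)
open Crest.Agent.R274.Prod1_134 (IsPF)

variable {F L : Type} [Field F] [Algebra ℂ F] [Field L] [Algebra ℂ L]

theorem map_smul' (α : F →ₐ[ℂ] L) (c : ℂ⟦X⟧) (f : F⟦X⟧) :
    map (α : F →+* L) (c • f) = c • map (α : F →+* L) f := by
  rw [smul_eq, smul_eq, map_mul]
  congr 1
  ext n
  simp

theorem exists_coef {α β : F →ₐ[ℂ] L} {W : Set F⟦X⟧} {n : ℕ} {r : Fin n → F⟦X⟧}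
    (h : ∀ s ∈ W, ∃ c : Fin n → ℂ⟦X⟧, s = ∑ k, c k • r k) {x : L⟦X⟧}
    (hx : x ∈ Submodule.span ℂ⟦X⟧
      {z | ∃ s ∈ W, ∃ s' ∈ W, z = map (α : F →+* L) s * map (β : F →+* L) s'}) :
    ∃ e : Fin n → Fin n → ℂ⟦X⟧,
      x = ∑ k, ∑ l, e k l • (map (α : F →+* L) (r k) * map (β : F →+* L) (r l)) := by
  induction hx using Submodule.span_induction with
  | mem x hx =>
    obtain ⟨s, hs, s', hs', rfl⟩ := hx
    obtain ⟨c, rfl⟩ := h s hs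
    obtain ⟨c', rfl⟩ := h s' hs'
    exact ⟨fun k l => c k * c' l, by
      simp only [map_sum, map_smul', Finset.sum_mul_sum, smul_mul_smul_comm]⟩
  | zero => exact ⟨0, by simp⟩
  | add x y _ _ h h' =>
    obtain ⟨e, rfl⟩ := h
    obtain ⟨e', rfl⟩ := h'
    exact ⟨e + e', by simp [add_smul, Finset.sum_add_distrib]⟩
  | smul c x _ h =>
    obtain ⟨e, rfl⟩ := h
    exact ⟨c • e, by simp [Finset.smul_sum, smul_smul]⟩

omit [Algebra ℂ L] in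
theorem v_coeff_mul {Γ₀ : Type} [LinearOrderedCommGroupWithZero Γ₀] {ν : Valuation L Γ₀} {γ : Γ₀}
    {A B : L⟦X⟧} (hA : ∀ d, ν (coeff d A) ≤ γ) (hB : ∀ d, ν (coeff d B) ≤ 1) (d : ℕ) :
    ν (coeff d (A * B)) ≤ γ := by
  rw [coeff_mul]
  exact ν.map_sum_le fun p _ => by
    rw [map_mul, ← mul_one γ]; exact mul_le_mul' (hA _) (hB _)

theorem v_coeff_map {Γ₀ : Type} [LinearOrderedCommGroupWithZero Γ₀] {ν : Valuation L Γ₀}
    {α : F →ₐ[ℂ] L} (h : ∀ f, f ≠ 0 → ν (α f) = 1) (A : F⟦X⟧) (d : ℕ) :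
    ν (coeff d (map (α : F →+* L) A)) ≤ 1 := by
  rw [coeff_map]
  rcases eq_or_ne (coeff d A) 0 with h0 | h0
  · simp [h0]
  · exact (h _ h0).le

theorem exists_plk {A : Type} [CommRing A] (a : Fin 8 → A) (i : Fin 8) :
    ∃ j l, plk (pv a) (qv a) j l = a i := by
  fin_cases i
  exacts [⟨2, 1, by simp [plk, pv, qv]⟩, ⟨3, 1, by simp [plk, pv, qv]⟩,
    ⟨4, 1, by simp [plk, pv, qv]⟩, ⟨5, 1, by simp [plk, pv, qv]⟩, ⟨0, 2, by simp [plk, pv, qv]⟩,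
    ⟨0, 3, by simp [plk, pv, qv]⟩, ⟨0, 4, by simp [plk, pv, qv]⟩, ⟨0, 5, by simp [plk, pv, qv]⟩]

variable {Γ : MvPolynomial (Fin 4) ℂ} {S : Hyp 3 Γ F} {M : BD ℂ F} {D : Dfm S M}
  {Q : PModel ℂ F} {q m : ℕ} {g : F} {G : MvPolynomial (Fin 6) ℂ}

/-- **the formal family of lines** -/
theorem exists_lfam [Algebra.EssFiniteType ℂ F] (hN : Lift8.NuStmt) (hΓ : Qt Γ) (b : Surf.B2 F)
    (Λ : Lines G F L) (pf : IsPF Λ.ι (Λ.τ.comp Λ.ι)) (hM : M ∈ On S.P) (hf : Free M)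
    (hL : Ext D 1) (hq : 0 < q) (hg : g ≠ 0) (hQ : oP Q + pr ℂ g = q • M) {T : Fam Q} {x₀ : F⟦X⟧}
    (h0 : constantCoeff x₀ = g) (hT : ∀ f ∈ GS D q, f * x₀⁻¹ ∈ T.FS 1) {u : L} (hu : u ≠ 0)
    (par : Λ.τ u = (-1) ^ m * u)
    (hp : mxf ℂ Λ.plk = pb Λ.ι M + pb (Λ.τ.comp Λ.ι) M - m • dgl Λ.ι (Λ.τ.comp Λ.ι) S.y + pr ℂ u)
    {c : T3 ℂ⟦X⟧} (sy : Sy c) (c0 : ∀ i j k, constantCoeff (c i j k) = ten G i j k)
    {a : Fin 8 → L⟦X⟧} (a0 : ∀ i, constantCoeff (a i) = Λ.a i) (on : OnL c (pv a) (qv a))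
    {w : L⟦X⟧} (w0 : constantCoeff w = 1)
    (sym : ∀ i j, map (Λ.τ : L →+* L) (w * plk (pv a) (qv a) i j) = w * plk (pv a) (qv a) i j)
    (kn : ∀ i j, C u⁻¹ * (w * plk (pv a) (qv a) i j) ∈ Submodule.span ℂ⟦X⟧
      {z | ∃ s ∈ (GS D 1 : Set F⟦X⟧), ∃ s' ∈ (GS D 1 : Set F⟦X⟧),
        z = map (Λ.ι : F →+* L) s * map (Λ.τ.comp Λ.ι : F →+* L) s'})
    (dg : ∀ i j n (V : RZ ℂ L), (∀ f, Λ.ι f ∈ V.1) → (∀ f, (Λ.τ.comp Λ.ι) f ∈ V.1) →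
      V.v (u⁻¹ * coeff n (w * plk (pv a) (qv a) i j)) ≤
        (-(m • dgl Λ.ι (Λ.τ.comp Λ.ι) S.y)).val V) : Nonempty (LFam T Λ) := by
  obtain ⟨ν, ν1, ν2, ν3, ν4⟩ := hN F L _ _ pf S.P b
  obtain ⟨n, r, h1, h2⟩ := hL.exists_gen hΓ
  obtain ⟨s₀, h3, h4⟩ := (hf.nsmul 1).exists_ne
  obtain ⟨ρ, h5, rfl⟩ := hL s₀ h3
  choose e he using fun i j => exists_coef h2 (kn i j)
  have h6 := PowerSeries.mul_inv_cancel ρ h4
  have h7 : constantCoeff ρ⁻¹ ≠ 0 := by rw [constantCoeff_inv]; exact inv_ne_zero h4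
  have h8 : map (Λ.τ : L →+* L) w = w := by simpa [plk, pv, qv] using sym 0 1
  have h9 : ∀ z, C u⁻¹ * w * (map (Λ.ι : F →+* L) ρ⁻¹ * map (Λ.τ.comp Λ.ι : F →+* L) ρ⁻¹) * z =
      C u⁻¹ * (w * z) * map (Λ.ι : F →+* L) ρ⁻¹ * map (Λ.τ.comp Λ.ι : F →+* L) ρ⁻¹ :=
    fun z => by ring
  have g1 : Λ.ι g ≠ 0 := (map_ne_zero _).2 hg
  have g2 : (Λ.τ.comp Λ.ι) g ≠ 0 := (map_ne_zero _).2 hg
  refine ⟨{
    pf := pf, r := q, r_pos := hq, n := n, ρ := fun k => r k * ρ⁻¹, β := ρ ^ q * x₀⁻¹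
    β0 := ?_, fs := fun k j hj => ?_, fsβ := hT _ (GS.pow h5 q), a := a, a0 := a0
    aτ := fun i => ?_, c := c, sy := sy, c0 := c0, on := on
    w := C u⁻¹ * w * (map (Λ.ι : F →+* L) ρ⁻¹ * map (Λ.τ.comp Λ.ι : F →+* L) ρ⁻¹)
    w0 := ?_, wτ := ?_, e := e, pl := fun i j => ?_, ν := ν, ν1 := ν1, ν2 := ν2, m := m
    ord := fun i j => ?_, lam := u ^ q * (Λ.ι g * (Λ.τ.comp Λ.ι) g)
    lam0 := mul_ne_zero (pow_ne_zero _ hu) (mul_ne_zero g1 g2), sec := fun k σ hσ hν => ?_ }⟩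
  · rw [map_mul, map_pow, constantCoeff_inv, h0]
    exact mul_ne_zero (pow_ne_zero _ h4) (inv_ne_zero hg)
  · obtain ⟨l, rfl⟩ := Nat.exists_eq_add_of_le hj
    convert hT _ (GS.mul (GS.pow (h1 k) j) (GS.pow h5 l)) using 1
    rw [pow_add, mul_pow]
    linear_combination r k ^ j * ρ ^ l * x₀⁻¹ * ((mul_pow ρ ρ⁻¹ j).symm.trans (by rw [h6, one_pow]))
  · obtain ⟨j, l, h⟩ := exists_plk a i
    have h10 := sym j l
    rw [h, map_mul, h8] at h10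
    exact mul_left_cancel₀ (fun h => by simp [h] at w0) h10
  · simp only [map_mul, constantCoeff_C, w0, const_map]
    exact mul_ne_zero (mul_ne_zero (inv_ne_zero hu) one_ne_zero)
      (mul_ne_zero ((map_ne_zero _).2 h7) ((map_ne_zero _).2 h7))
  · have h10 : ∀ f, map (Λ.τ : L →+* L) (map (Λ.ι : F →+* L) f) =
        map (Λ.τ.comp Λ.ι : F →+* L) f := fun f => by ext n; simp
    have h11 : ∀ f, map (Λ.τ : L →+* L) (map (Λ.τ.comp Λ.ι : F →+* L) f) =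
        map (Λ.ι : F →+* L) f := fun f => by ext n; simp [Λ.inv]
    have h12 : (Λ.τ : L →+* L) (u⁻¹ ^ 2) = u⁻¹ ^ 2 := by
      rw [map_pow, map_inv₀, RingHom.coe_coe, par, inv_pow, mul_pow, ← pow_mul, mul_comm m,
        pow_mul, neg_one_sq, one_pow, one_mul, inv_pow]
    rw [mul_pow, mul_pow, ← map_pow C, map_mul, map_mul, map_C, h12, map_pow _ w, h8,
      map_pow _ (_ * _), map_mul, h10, h11, mul_comm (map (Λ.ι : F →+* L) ρ⁻¹)]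
  · simp only [h9, he, Finset.sum_mul, smul_mul_assoc, map_mul]
    exact Finset.sum_congr rfl fun k _ => Finset.sum_congr rfl fun l _ => congrArg _ (by ring)
  · rw [h9]
    exact v_coeff_mul (v_coeff_mul (fun d => coeff_C_mul d _ u⁻¹ ▸ ν3 m _ (dg i j d))
      (v_coeff_map ν1 _)) (v_coeff_map ν2 _)
  · have h10 : k • (pb Λ.ι (oP Q) + pb (Λ.τ.comp Λ.ι) (oP Q)) +
        k • (pr ℂ (Λ.ι g) + pr ℂ ((Λ.τ.comp Λ.ι) g)) =
        pb Λ.ι ((q * k) • M) + pb (Λ.τ.comp Λ.ι) ((q * k) • M) := by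
      simp only [mul_nsmul, ← hQ, map_nsmul, map_add, pb_pr, nsmul_add]
      abel
    have h11 := ν4 _ (nsmul_mem hM (q * k)) (q * k * m) _ (h10 ▸ mul_mem_Sec hσ
      (pow_mem_Sec (mul_mem_Sec (mem_Sec_pr _) (mem_Sec_pr _)) k)) (by
        rwa [map_mul, map_pow, map_mul, ν1 g hg, ν2 g hg, one_mul, one_pow, mul_one])
    convert mul_mem_Sec h11 (pow_mem_Sec (mem_Sec_pr (k := ℂ) u) (q * k)) using 1
    · rw [hp, nsmul_add, nsmul_sub, nsmul_add, map_nsmul, map_nsmul, smul_smul]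
    · ring

end Crest.Agent.X262.Fam6
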