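import Crest.Agent.X262.Alg44.Defs
import Crest.Agent.X262.Mv99.Ten

/-!
# Row 262, G4 / FAM (helper6), part 1: another embedding of a smooth model; adic generation

* `Same P Q`      : the two models have the same local rings;
* `exists_rem`    : the embedding by `a + oP P` for a free `a`;
* `mem_span_adic` : a saturated module of power series is generated by lifts of generators.
-/

set_option autoImplicit false

open PowerSeries

noncomputable section

namespace Crest.Agent.X262.Fam6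

open Crest.Agent.X277 Crest.Agent.X277.Lef Crest.Agent.X277.AN.G1 Crest.Agent.X277.BD
open Crest.Agent.X277.BD.Br
open Crest.Agent.X262.Mv99 (sh eq_C_add eq_of_dvd)

variable {F : Type} [Field F] [Algebra ℂ F] {P Q : PModel ℂ F}

/-- the same local rings -/
structure Same (P Q : PModel ℂ F) : Prop where
  dn : ∀ z : Pts Q, ∃ x : Pts P, lp x = lp z
  up : ∀ x : Pts P, ∃ z : Pts Q, lp z = lp x

theorem at_congr {x : Pts P} {z : Pts Q} (h : lp x = lp z) {a : BD ℂ F} {g : F} :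
    At a x g ↔ At a z g := by
  simp only [At, Cns.Ov, h]

theorem Same.symm (h : Same P Q) : Same Q P := ⟨h.up, h.dn⟩

theorem Same.on_le (h : Same P Q) : On P ≤ On Q := fun _ ha z =>
  (h.dn z).elim fun x hx => (ha x).imp fun _ => (at_congr hx).1

theorem Same.on_eq (h : Same P Q) : On Q = On P := le_antisymm h.symm.on_le h.on_le

theorem Same.reg1 (h : Same P Q) {ω : Ω[F⁄ℂ]} (hω : Top.Reg1 P ω) : Top.Reg1 Q ω := fun z =>
  (h.dn z).elim fun x hx => hx ▸ hω x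

theorem Same.kP_eq (h : Same P Q) {n : ℕ} (b : Module.Basis (Fin n) F Ω[F⁄ℂ]) :
    kP Q b = kP P b := le_antisymm (kP_le b (h.symm.on_le oP_mem)) (kP_le b (h.on_le oP_mem))

/-- the embedding by `a + oP P`, normalised -/
theorem exists_rem {a : BD ℂ F} (ha : a ∈ On P) (hf : Free a) : ∃ (Q : PModel ℂ F) (g : F),
    g ≠ 0 ∧ Q.y 0 = 1 ∧ oP Q + pr ℂ g = a + oP P ∧ Same P Q := by
  obtain ⟨r, s, h0, h1, rfl⟩ := exists_gn ha hf
  let e := Cns.eI (Fin (P.N + 1) × Fin (r + 1))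
  let g := P.y (e 0).1 * s (e 0).2
  have hg : g ≠ 0 := mul_ne_zero (P.y_ne _) (h0 _)
  let w : Fin (P.N + 1) × Fin (r + 1) → F := fun p => P.y p.1 * s p.2 / g
  have hw : ∀ p, w p ≠ 0 := fun p => div_ne_zero (mul_ne_zero (P.y_ne _) (h0 _)) hg
  have h2 : Cns.Gn P w := fun x => (Cns.gn_y.mul h1 x).imp fun p h => ⟨hw p, fun l => by
    rw [div_div_div_cancel_right₀ hg]; exact h.2 l⟩
  have h3 : ∀ p, P.A p.1 ≤ Cns.chI ℂ w p := fun p => Algebra.adjoin_le <| by
    rintro _ ⟨j, rfl⟩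
    have := Cns.div_mem_chI ℂ w p (j, p.2)
    rwa [div_div_div_cancel_right₀ hg, mul_div_mul_right _ _ (h0 _)] at this
  have h4 : ∀ p (L : LP F), L.Of (Cns.chI ℂ w p) → ∃ x : Pts P, lp x = L := fun p L hL => by
    obtain ⟨x, -, hx⟩ := exists_dom (i := p.1) L fun j => hL.le (h3 p (div_mem_chart P.y _ j))
    exact ⟨x, Cns.eq_of_dom_of hx hL (Cns.chI_le (h2.div_mem hx (hw p) fun l =>
      hL.le (Cns.div_mem_chI ℂ w p l)))⟩
  let Q := Cns.ofFam w hw (fun p f => by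
    obtain ⟨a, ha, c, hc, h⟩ := P.frac' p.1 f
    exact ⟨a, h3 p ha, c, h3 p hc, h⟩) fun p => Cns.smooth_of_lp _ fun L hL =>
      (h4 p L hL).elim fun x hx => hx ▸ Cns.lp_fs x
  refine ⟨Q, g, hg, div_self hg, ?_, fun z => ?_, fun x => ?_⟩
  · have h5 : ∀ p, w p * g ∈ (mxf ℂ s + oP P).Sec := fun p => by
      rw [div_mul_cancel₀ _ hg, mul_comm]
      exact mul_mem_Sec (mem_Sec_mxf s _) (y_mem_Sec _)
    refine ext' fun V => le_antisymm ?_ ?_
    · obtain ⟨i, hi⟩ := exists_val_mxf (k := ℂ) ⟨0, Q.y_ne 0⟩ V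
      rw [val_add, oP, ← hi, val_pr hg, ← map_mul]
      exact h5 _ V
    · obtain ⟨i, hi⟩ := exists_val_mxf (k := ℂ) ⟨0, P.y_ne 0⟩ V
      obtain ⟨j, hj⟩ := exists_val_mxf (k := ℂ) ⟨0, h0 0⟩ V
      have h6 := y_mem_Sec (P := Q) (e.symm (i, j)) V
      rw [Cns.ofFam_y_symm, map_div₀, div_le_iff₀ (RZ.pos hg), map_mul] at h6
      rwa [val_add, val_add, oP, ← hi, ← hj, val_pr hg, mul_comm]
  · obtain ⟨i, hi⟩ := exists_pat z
    exact h4 _ _ (Cns.ofFam_A w hw _ _ i ▸ lp_of hi)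
  · obtain ⟨p, -, hp⟩ := h2 x
    obtain ⟨z, hz, h5⟩ := exists_dom (P := Q) (i := e.symm p) (lp x) fun j => by
      rw [Cns.ofFam_y_symm]; exact hp _
    have h6 := (Cns.ofFam_A w hw _ _ _).ge.trans (A_le hz)
    rw [Equiv.apply_symm_apply] at h6
    exact ⟨z, Cns.eq_of_dom_of h5 (lp_of (mem_pat_of_mem fun j =>
      Cns.chI_le hp (h3 p (div_mem_chart P.y _ j)))) ((h3 p).trans h6)⟩

theorem smul_eq (c : ℂ⟦X⟧) (f : F⟦X⟧) : c • f = map (algebraMap ℂ F) c * f := Algebra.smul_def c f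

theorem const_smul (c : ℂ⟦X⟧) (f : F⟦X⟧) :
    constantCoeff (c • f) = constantCoeff c • constantCoeff f := by
  rw [smul_eq, map_mul, Mv99.const_map, Algebra.smul_def]

/-- **adic generation** -/
theorem mem_span_adic {W : Submodule ℂ⟦X⟧ F⟦X⟧} (sat : ∀ f, X * f ∈ W → f ∈ W) {ι : Type}
    [Fintype ι] {r : ι → F⟦X⟧} (hr : ∀ i, r i ∈ W)
    (h : ∀ f ∈ W, constantCoeff f ∈ Submodule.span ℂ (Set.range fun i => constantCoeff (r i)))
    {f : F⟦X⟧} (hf : f ∈ W) : ∃ c : ι → ℂ⟦X⟧, f = ∑ i, c i • r i := by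
  have h1 : ∀ f : W, ∃ (c : ι → ℂ) (g : W),
      (f : F⟦X⟧) = ∑ i, (C (c i) : ℂ⟦X⟧) • r i + X * (g : F⟦X⟧) := fun f => by
    obtain ⟨c, hc⟩ := (Submodule.mem_span_range_iff_exists_fun ℂ).1 (h f f.2)
    have h2 := eq_C_add (f - ∑ i, (C (c i) : ℂ⟦X⟧) • r i : F⟦X⟧)
    rw [map_sub, map_sum, ← hc] at h2
    simp only [const_smul, constantCoeff_C, sub_self, map_zero, zero_add] at h2
    exact ⟨c, ⟨_, sat _ (h2 ▸ sub_mem f.2 (sum_mem fun i _ => W.smul_mem _ (hr i)))⟩,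
      by rw [← h2]; simp⟩
  choose c g hg using h1
  have h2 : ∀ n (v : W), X ^ n ∣ (v : F⟦X⟧) - ∑ i, (mk fun m => c (g^[m] v) i) • r i := by
    intro n
    induction n with
    | zero => simp
    | succ n ih =>
      intro v
      have h3 : ∀ i, (mk fun m => c (g^[m] v) i) • r i =
          (C (c v i) : ℂ⟦X⟧) • r i + X * (mk fun m => c (g^[m] (g v)) i) • r i := fun i => by
        rw [eq_C_add (mk fun m => c (g^[m] v) i), add_smul, mul_smul, smul_eq X, map_X]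
        congr 3
        ext m
        simp [sh]
      simp only [h3, Finset.sum_add_distrib, ← Finset.mul_sum]
      rw [hg v, add_sub_add_left_eq_sub, ← mul_sub, pow_succ']
      exact mul_dvd_mul_left _ (ih _)
  exact ⟨_, eq_of_dvd fun n => h2 n ⟨f, hf⟩⟩

end Crest.Agent.X262.Fam6
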